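import Vale.Agent.P119.PA
import Vale.Agent.P119.Swap
import Vale.Agent.P119.Time
import Vale.Agent.P119.Shear
import Vale.Agent.P119.Loc
import Vale.Agent.P119.Slip
import Vale.Agent.P119.Conv
import Vale.Agent.P119.Mlim
import Vale.Agent.P119.LiouCfg
import Vale.Agent.P119.Lip
import Vale.Agent.P119.Cut
import Vale.Agent.P119.Pot
import Vale.Agent.P119.DU
import Vale.Agent.P119.Vir
import Vale.Agent.P119.DQ
import Vale.Agent.P119.En
import Vale.Agent.P119.Liou
import Vale.Agent.P119.Ode
import Vale.Agent.P119.Path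
import Vale.Agent.P119.G1
import Vale.Agent.P119.G2
import Vale.Agent.P119.G3
import Vale.Agent.P119.Pi
import Vale.Agent.P119.PB
import Vale.Agent.P119.P
import Vale.Agent.P119.Plow
import Vale.Agent.P119.Ent
import Vale.Agent.P119.Blk
import Vale.Agent.P119.Hoef
import Vale.Agent.P119.Perm
import Vale.Agent.P119.FixI
import Vale.Agent.P119.FixA
import Vale.Agent.P119.FixB
import Vale.Agent.P119.FixC
import Vale.Agent.P119.FixD
import Vale.Agent.P119.Triv
import Vale.Agent.P119.FixE
import Vale.Agent.P119.Shift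
import Vale.Agent.P119.Gc1
import Vale.Agent.P119.Gc2
import Vale.Agent.P119.Gc
import Vale.Agent.P119.Bal
import Vale.Agent.P119.Disc
import Vale.Agent.P119.Qbd
import Vale.Agent.P119.Gron
import Vale.Agent.P119.Uniq
import Vale.Agent.P119.Scat
import Vale.Agent.P119.Reg
import Vale.Agent.P119.LOne
import Vale.Agent.P119.Main

namespace Vale.Agent.P119

theorem t_pA : S_pA := s_pA
theorem t_swap : S_swap := s_swap
theorem t_time : S_time := s_time t_swap
theorem t_shear : S_shear := s_shear
theorem t_loc : S_loc := s_loc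
theorem t_slip : S_slip := s_slip
theorem t_conv : S_conv := s_conv t_loc t_slip
theorem t_mlim : S_mlim := s_mlim
theorem t_liouCfg : S_liouCfg := s_liouCfg t_shear t_conv t_mlim
theorem t_lip : S_lip := s_lip
theorem t_cut : S_cut := s_cut
theorem t_pot : S_pot := s_pot
theorem t_dU : S_dU := s_dU t_pot
theorem t_vir : S_vir := s_vir t_pot
theorem t_dQ : S_dQ := s_dQ
theorem t_en : S_en := s_en t_dU t_vir t_dQ
theorem t_liou : S_liou := s_liou t_liouCfg t_lip t_cut t_en
theorem t_ode : S_ode := s_ode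
theorem t_path : S_path := s_path t_dU t_vir t_dQ t_ode
theorem t_g1 : S_g1 := s_g1 t_shear
theorem t_g2 : S_g2 := s_g2
theorem t_g3 : S_g3 := s_g3 t_g1
theorem t_pi : S_pi := s_pi
theorem t_pB : S_pB := s_pB
theorem t_p : S_p := s_p t_pA t_pB t_g3
theorem t_plow : S_plow := s_plow
theorem t_ent : S_ent := s_ent
theorem t_blk : S_blk := s_blk
theorem t_hoef : S_hoef := s_hoef t_blk
theorem t_perm : S_perm := s_perm
theorem t_fixI : S_fixI := s_fixI t_path t_g3
theorem t_fixA : S_fixA := s_fixA t_path t_g3 t_liou t_ent t_time t_fixI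
theorem t_fixB : S_fixB := s_fixB t_g3 t_liou t_ent t_fixI t_fixA
theorem t_fixC : S_fixC := s_fixC t_g1 t_g3 t_pi t_hoef t_fixB
theorem t_fixD : S_fixD := s_fixD t_g3 t_perm t_fixC
theorem t_triv : S_triv := s_triv t_g3
theorem t_fixE : S_fixE := s_fixE t_p t_plow t_fixD t_triv
theorem t_shift : S_shift := s_shift
theorem t_gc1 : S_gc1 := s_gc1 t_shift
theorem t_gc2 : S_gc2 := s_gc2
theorem t_gc : S_gc := s_gc t_shift t_gc1 t_gc2
theorem t_bal : S_bal := s_bal
theorem t_disc : S_disc := s_disc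
theorem t_Qbd : S_Qbd := s_Qbd t_bal t_disc
theorem t_gron : S_gron := s_gron
theorem t_uniq : S_uniq := s_uniq t_Qbd t_gron
theorem t_scat : S_scat := s_scat t_pot
theorem t_reg : S_reg := s_reg t_g1 t_Qbd
theorem t_L1 : S_L1 := s_L1
theorem t_main : S_main := s_main t_g2 t_p t_fixE t_triv t_gc

end Vale.Agent.P119
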